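import Crest.Agent.R166.LG.GX

/-! # R166/LG: `stKit` (Kit), `stSX`, `stView` (SX), `stGX` (GX); none of them takes hypotheses. -/
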